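import Vale.Agent.P159.Decay

/-!
# P159 (Q2): the correlation length grows at least like a power larger than one half

For the nearest-neighbour cosine XY model on `[-R,R]²` with free boundary we show that both limits
defining `m(b)` exist, that `b_c > 0` and `m(b_c) = 0`, and that, just below `b_c`,
`0 < m(b) ≤ 3072 (b_c - b)^ν` with an explicit `ν > 1/2`.
-/

open MeasureTheory Real Filter Topology

namespace Vale.Agent.Results.P159.CorrelationLength

/-- The sites of `[-R,R]² ∩ ℤ²`. -/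
noncomputable def sites (R : ℕ) : Finset (ℤ × ℤ) := Finset.Icc (-(R : ℤ), -(R : ℤ)) (R, R)

/-- The sum of `cos (θ_x - θ_y)` over unordered nearest-neighbour pairs of sites, each counted once
(half the sum over ordered pairs). -/
noncomputable def energy (R : ℕ) (θ : ↥(sites R) → ℝ) : ℝ :=
  1 / 2 * ∑ x : ↥(sites R), ∑ y : ↥(sites R),
    if (x.1.1 - y.1.1) ^ 2 + (x.1.2 - y.1.2) ^ 2 = 1 then cos (θ x - θ y) else 0

/-- The law `dθ/2π` of one angle. -/
noncomputable def uniformAngle : Measure ℝ :=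
  (ENNReal.ofReal (2 * π))⁻¹ • volume.restrict (Set.Ioc 0 (2 * π))

/-- `E_{R,b} cos (θ_0 - θ_{r e_1})`, and `0` if `r e_1` is not a site. -/
noncomputable def twoPoint (R : ℕ) (b : ℝ) (r : ℕ) : ℝ :=
  if h : (0 : ℤ × ℤ) ∈ sites R ∧ ((r : ℤ), (0 : ℤ)) ∈ sites R then
    (∫ θ, cos (θ ⟨0, h.1⟩ - θ ⟨((r : ℤ), 0), h.2⟩) * exp (b * energy R θ)
        ∂Measure.pi fun _ : ↥(sites R) => uniformAngle) /
      ∫ θ, exp (b * energy R θ) ∂Measure.pi fun _ : ↥(sites R) => uniformAngle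
  else 0

open Vale.Agent.P159 in
theorem twoPoint_eq (R : ℕ) (b : ℝ) (r : ℕ) : twoPoint R b r = corrS b (box R) 0 ((r : ℤ), 0) := by
  have he : ∀ θ, ham (coup b (box R)) θ = b * energy R θ := by
    intro θ
    simp only [ham, coup, energy, Finset.mul_sum, Fintype.sum_prod_type]
    refine Finset.sum_congr rfl fun x _ => Finset.sum_congr rfl fun y _ => ?_
    by_cases hh : (x.1.1 - y.1.1) ^ 2 + (x.1.2 - y.1.2) ^ 2 = 1
    · rw [show adj x.1 y.1 = 1 from if_pos hh, if_pos hh]; ring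
    · rw [show adj x.1 y.1 = 0 from if_neg hh, if_neg hh]; ring
  by_cases h : (0 : ℤ × ℤ) ∈ sites R ∧ ((r : ℤ), (0 : ℤ)) ∈ sites R
  · rw [twoPoint, dif_pos h, corrS_of_mem (show (0 : ℤ × ℤ) ∈ box R from h.1) (show _ ∈ box R from h.2)]
    simp only [corr, avg, pf, he, one_mul]
    rfl
  · rw [twoPoint, dif_neg h, corrS, dif_neg]
    exact h

/-- The limits defining `m` exist; `b_c > 0`, `m(b_c) = 0`; and `m(b)` is at most a power, with exponent
larger than one half, of the distance to `b_c`. -/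
theorem result : ∃ (C : ℝ → ℕ → ℝ) (m : ℝ → ℝ),
    (∀ b r, 0 < b → Tendsto (fun R : ℕ => twoPoint R b r) atTop (𝓝 (C b r))) ∧
    (∀ b, 0 < b → Tendsto (fun r : ℕ => -log (C b r) / r) atTop (𝓝 (m b))) ∧
    ∀ bc, IsGLB {b : ℝ | 0 < b ∧ m b = 0} bc →
      0 < bc ∧ m bc = 0 ∧ 1 / 2 < 1 / (2 - min 1 (1 / (64 * bc)) / 4) ∧
      ∀ b, 0 < b → bc - 1 / 3072 < b → b < bc →
        0 < m b ∧ m b ≤ 3072 * (bc - b) ^ (1 / (2 - min 1 (1 / (64 * bc)) / 4)) := by
  open Vale.Agent.P159 in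
  refine ⟨g, mass, fun b r hb => ?_, fun b hb => tendsto_mass hb, fun bc hbc => ?_⟩
  · simp only [twoPoint_eq]
    exact tendsto_C hb.le _ _
  have hpos : 0 < bc := by
    have : (1 : ℝ) / 18 ≤ bc := hbc.2 fun x hx => le_of_not_gt fun hlt => (mass_pos_small hx.1 hlt).ne' hx.2
    linarith
  have hzero : mass bc = 0 := by
    by_contra hne
    obtain ⟨Δ, hΔ, hmΔ⟩ := exists_mass_pos_right hpos ((mass_nonneg hpos.le).lt_of_ne' hne)
    have : bc + Δ ≤ bc := hbc.2 fun x hx => le_of_not_gt fun hlt =>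
      (hmΔ.trans_le (mass_antitone hx.1 hlt.le)).ne' hx.2
    linarith
  refine ⟨hpos, hzero, ?_, fun b hb hclose hlt => ?_⟩
  · show 1 / 2 < 1 / (2 - pExp bc)
    exact one_div_lt_one_div_of_lt (by linarith [pExp_le bc]) (by linarith [pExp_pos hpos])
  have hm : 0 < mass b := (mass_nonneg hb.le).lt_of_ne' fun h0 => hlt.not_ge (hbc.1 ⟨hb, h0⟩)
  exact ⟨hm, mass_le_power hb hlt.le (by linarith) hm hzero⟩

end Vale.Agent.Results.P159.CorrelationLength
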